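import Vale.Agent.P040.H568.TripodDef

/-!
# P040, both odd: the parity law is inherited by deletions; the gates (helper553)

* `wn_le_one`, `wn_compl`, `wn_add`: the function `wn`;
* `Law.del`: the parity law is inherited when an empty bigon is deleted; `le_dlam`;
* `Law.two_marks`, `Law.gate_anti`, `Law.gate_par`: two tied points of colour `true` which are
  consecutive: if the line runs against the curve, `lab d = lab a + 1 ↔ wn wl a d = 0`
  (i.e. `a` is before `d` on the line cut at `w`), if it runs along, `lab d = lab a + 1 ↔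
  wn wl a d = 1`.
-/

set_option autoImplicit false

namespace Vale.Agent.P040.H568

open Vale.Agent.P040.H906 P040H251 Vale.Agent.P040.H587

variable {W : Type*} [LinearOrder W]

/-! ### the function `wn` -/

/-- the hypothesis on the cut -/
def CutOK (wl : W → Bool) : Prop := ∀ x y, x ≤ y → wl y = true → wl x = true

theorem wn_le_one (wl : W → Bool) (x y : W) : wn wl x y ≤ 1 := by
  unfold wn; split_ifs <;> omega

theorem wn_compl (wl : W → Bool) {x y : W} (h : x ≠ y) : wn wl x y + wn wl y x = 1 := by
  unfold wn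
  rcases lt_or_gt_of_ne h with h1 | h1
  · rw [if_pos h1, if_neg (not_lt.2 h1.le)]
    by_cases h2 : wl x = true ∧ wl y = false
    · rw [if_pos h2, if_pos h2]
    · rw [if_neg h2, if_neg h2]
  · rw [if_neg (not_lt.2 h1.le), if_pos h1]
    by_cases h2 : wl y = true ∧ wl x = false
    · rw [if_pos h2, if_pos h2]
    · rw [if_neg h2, if_neg h2]

theorem wn_lt {wl : W → Bool} {x y : W} (h : x < y) :
    wn wl x y = if wl x = true ∧ wl y = false then 1 else 0 := by
  unfold wn; rw [if_pos h]

theorem wn_gt {wl : W → Bool} {x y : W} (h : y < x) :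
    wn wl x y = if wl y = true ∧ wl x = false then 0 else 1 := by
  unfold wn; rw [if_neg (not_lt.2 h.le)]

/-- consecutive arcs -/
theorem wn_add {wl : W → Bool} (hw : CutOK wl) {x y z : W} (h : Cyc x y z) :
    wn wl x z = wn wl x y + wn wl y z := by
  rcases h with ⟨h1, h2⟩ | ⟨h1, h2⟩ | ⟨h1, h2⟩
  · -- x < y < z
    rw [wn_lt (h1.trans h2), wn_lt h1, wn_lt h2]
    have a1 := hw x y h1.le
    have a2 := hw y z h2.le
    cases hx : wl x <;> cases hy : wl y <;> cases hz : wl z <;> simp_all
  · -- y < z < x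
    rw [wn_gt h2, wn_gt (h1.trans h2), wn_lt h1]
    have a1 := hw y z h1.le
    have a2 := hw z x h2.le
    cases hx : wl x <;> cases hy : wl y <;> cases hz : wl z <;> simp_all
  · -- z < x < y
    rw [wn_gt h1, wn_lt h2, wn_gt (h1.trans h2)]
    have a1 := hw z x h1.le
    have a2 := hw x y h2.le
    cases hx : wl x <;> cases hy : wl y <;> cases hz : wl z <;> simp_all

/-! ### deletion -/

theorem dlam_same (c : Cfg W) (lam : Bool → W → ℕ) (b : Bool) (x y : W) :
    dlam c lam b x b y = lam b y := by
  unfold dlam; rw [if_pos rfl]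

theorem dlam_pos (c : Cfg W) (lam : Bool → W → ℕ) (b : Bool) (x y : W)
    (h : y = c.f (!b) x ∨ y = c.f (!b) (c.f b x)) :
    dlam c lam b x (!b) y = lam (!b) x + lam b x + lam (!b) (c.f b x) := by
  unfold dlam
  rw [if_neg (by cases b <;> simp), if_pos h]

theorem dlam_neg (c : Cfg W) (lam : Bool → W → ℕ) (b : Bool) (x y : W)
    (h1 : y ≠ c.f (!b) x) (h2 : y ≠ c.f (!b) (c.f b x)) :
    dlam c lam b x (!b) y = lam (!b) y := by
  unfold dlam
  rw [if_neg (by cases b <;> simp), if_neg (by rintro (h | h); exacts [h1 h, h2 h])]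

namespace Law

variable {c : Cfg W} {col : W → Bool} {E₀ : W → ℝ} {M₀ : ℝ} {lam : Bool → W → ℕ}
  {lab : W → ZMod 3} {wl : W → Bool}

theorem cutOK (h : Law c col E₀ M₀ lam lab wl) : CutOK wl := h.cut

/-- the marks do not decrease -/
theorem le_dlam (h : Law c col E₀ M₀ lam lab wl) {b : Bool} {x : W} (hx : x ∈ c.S)
    (hg : c.Good) (b' : Bool) (y : W) : lam b' y ≤ dlam c lam b x b' y := by
  rcases Cfg.bool_cases b b' with rfl | rfl
  · rw [dlam_same]
  · by_cases h1 : y = c.f (!b) x
    · rw [dlam_pos c lam b x y (Or.inl h1), h1, h.sym _ x hx]; omega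
    · by_cases h2 : y = c.f (!b) (c.f b x)
      · rw [dlam_pos c lam b x y (Or.inr h2), h2, h.sym _ _ (hg.mem b x hx)]; omega
      · rw [dlam_neg c lam b x y h1 h2]

/-- `4 M₀` is an odd integer -/
theorem four (h : Law c col E₀ M₀ lam lab wl) (hg : c.Good) :
    ∃ n : ℤ, 4 * M₀ = 1 + 2 * (n : ℝ) := by
  obtain ⟨x, hx⟩ := hg.nonem
  have hq := hg.mem true x hx
  obtain ⟨n, hn⟩ := h.par true x hx
  obtain ⟨m, hm⟩ := h.par true _ hq
  rw [hg.inv true x hx, h.sym true x hx] at hm
  have hw := wn_compl wl (hg.ne true x hx).symm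
  have hw' : (wn wl x (c.f true x) : ℝ) + (wn wl (c.f true x) x : ℝ) = 1 := by
    exact_mod_cast hw
  have e1 : c.dl E₀ true (c.f true x) = - c.dl E₀ true x := by
    unfold Cfg.dl; rw [hg.inv true x hx]; ring
  rw [e1] at hm
  refine ⟨lam true x + n + m, ?_⟩
  push_cast
  linarith

/-- **The law is inherited when an empty bigon is deleted.** -/
theorem del (h : Law c col E₀ M₀ lam lab wl) (hg : c.Good) (hcol : ColOK col c)
    (hc : 2 < c.S.card) {b : Bool} {x : W} (hl : c.Leaf b x) :
    Law (c.del b x) col E₀ M₀ (dlam c lam b x) lab wl := by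
  classical
  obtain ⟨hx, hleaf⟩ := hl
  have hq := hg.mem b x hx
  have hP := hg.mem (!b) x hx
  have hQ := hg.mem (!b) _ hq
  have hpq := hg.ne b x hx
  have hPp := hg.ne (!b) x hx
  have hQq := hg.ne (!b) _ hq
  have hPq := hg.ne_other hc b hx
  have hinvP := hg.inv (!b) x hx
  have hinvQ := hg.inv (!b) _ hq
  have hinvx := hg.inv b x hx
  have hQp : c.f (!b) (c.f b x) ≠ x := by
    intro he; apply hPq; rw [← he, hinvQ, he]
  have hPQ : c.f (!b) x ≠ c.f (!b) (c.f b x) := by
    intro he; exact hpq (hg.inj hx hq he).symm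
  obtain ⟨o1, o2, o3, o4⟩ := Cfg.leaf_order hpq.symm hPp.symm hQp.symm hPq.symm hQq.symm hPQ
    (hleaf _ hP) (hleaf _ hQ) (hg.nc (!b) x hx _ hq)
  -- abbreviations
  obtain ⟨q, hqd⟩ : ∃ q, q = c.f b x := ⟨_, rfl⟩
  rw [← hqd] at hq hQ hpq hQq hPq hinvQ hinvx hQp hPQ o1 o2 o3 o4
  obtain ⟨P, hPd⟩ : ∃ P, P = c.f (!b) x := ⟨_, rfl⟩
  rw [← hPd] at hP hPp hPq hinvP hPQ o2 o3 o4
  obtain ⟨Q, hQd⟩ : ∃ Q, Q = c.f (!b) q := ⟨_, rfl⟩
  rw [← hQd] at hQ hQq hinvQ hQp hPQ o1 o2 o3
  have hfP : (c.del b x).f (!b) P = Q := by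
    rw [Cfg.del_other, if_pos hinvP, ← hqd, hQd]
  have hfQ : (c.del b x).f (!b) Q = P := by
    rw [Cfg.del_other, if_neg (by rw [hinvQ]; exact hpq), if_pos (by rw [hinvQ, hqd]), hPd]
  have hfo : ∀ y ∈ c.S, y ≠ P → y ≠ Q → (c.del b x).f (!b) y = c.f (!b) y := by
    intro y hy h1 h2
    have h3 : c.f (!b) y ≠ x := fun e => h1 (by rw [hPd, ← e, hg.inv _ _ hy])
    have h4 : c.f (!b) y ≠ c.f b x := fun e => h2 (by rw [hQd, hqd, ← e, hg.inv _ _ hy])
    rw [Cfg.del_other, if_neg h3, if_neg h4]
  have hm0 : lam (!b) x + lam b x + lam (!b) (c.f b x) = lam (!b) x + lam b x + lam (!b) q := by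
    rw [hqd]
  have hmP : dlam c lam b x (!b) P = lam (!b) x + lam b x + lam (!b) q := by
    rw [dlam_pos c lam b x P (Or.inl hPd), hm0]
  have hmQ : dlam c lam b x (!b) Q = lam (!b) x + lam b x + lam (!b) q := by
    rw [dlam_pos c lam b x Q (Or.inr (by rw [hQd, hqd])), hm0]
  have hmo : ∀ y, y ≠ P → y ≠ Q → dlam c lam b x (!b) y = lam (!b) y := by
    intro y h1 h2
    exact dlam_neg c lam b x y (by rw [← hPd]; exact h1) (by rw [← hqd, ← hQd]; exact h2)
  have hmN : ((lam (!b) x + lam b x + lam (!b) q : ℕ) : ℝ) =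
      lam (!b) x + lam b x + lam (!b) q := by push_cast; ring
  -- the law on the new chord
  have key : ∃ n : ℤ, 2 * (M₀ + sg (!b) * (E₀ Q - E₀ P)) =
      ((lam (!b) x + lam b x + lam (!b) q : ℕ) : ℝ) + (wn wl P Q : ℝ) + 2 * (n : ℝ) := by
    obtain ⟨n1, hn1⟩ := h.par (!b) P hP
    obtain ⟨n2, hn2⟩ := h.par (!b) q hq
    obtain ⟨n3, hn3⟩ := h.par b x hx
    have e1 : c.dl E₀ (!b) P = sg (!b) * (E₀ x - E₀ P) := by unfold Cfg.dl; rw [hinvP]
    have e2 : c.dl E₀ (!b) q = sg (!b) * (E₀ Q - E₀ q) := by unfold Cfg.dl; rw [← hQd]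
    have e3 : c.dl E₀ b x = - (sg (!b) * (E₀ q - E₀ x)) := by
      unfold Cfg.dl; rw [← hqd, sg_not]; ring
    rw [e1, hinvP] at hn1
    rw [e2, ← hQd] at hn2
    rw [e3, ← hqd] at hn3
    have hm1 : lam (!b) P = lam (!b) x := by rw [hPd]; exact h.sym (!b) x hx
    rw [hm1] at hn1
    have a1 : wn wl P Q = wn wl P q + wn wl q Q := by
      refine wn_add h.cut ?_
      have := o3
      unfold Cyc at this ⊢
      grind
    have a2 : wn wl P q = wn wl P x + wn wl x q := by
      refine wn_add h.cut ?_
      have := o4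
      unfold Cyc at this ⊢
      grind
    have a3 : (wn wl P Q : ℝ) = wn wl P x + wn wl x q + wn wl q Q := by
      rw [a1, a2]; push_cast; ring
    refine ⟨n1 + n2 - n3 - lam b x - wn wl x q, ?_⟩
    rw [hmN, a3]
    push_cast
    linarith
  refine ⟨h.cut, ?_, ?_, ?_, ?_⟩
  · -- sym
    intro b' y hy
    obtain ⟨hy1, hy2, hy3⟩ := Cfg.mem_del.1 hy
    rcases Cfg.bool_cases b b' with rfl | rfl
    · rw [Cfg.del_same, dlam_same, dlam_same]; exact h.sym _ y hy3
    · by_cases h1 : y = P
      · rw [h1, hfP, hmP, hmQ]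
      · by_cases h2 : y = Q
        · rw [h2, hfQ, hmP, hmQ]
        · rw [hfo y hy3 h1 h2, hmo y h1 h2, hmo, h.sym _ y hy3]
          · intro e; apply hy2
            rw [← hg.inv (!b) y hy3, e, hinvP]
          · intro e; apply hy1
            rw [← hg.inv (!b) y hy3, e, hinvQ, hqd]
  · -- par
    intro b' y hy
    obtain ⟨hy1, hy2, hy3⟩ := Cfg.mem_del.1 hy
    rcases Cfg.bool_cases b b' with rfl | rfl
    · obtain ⟨n, hn⟩ := h.par b' y hy3
      refine ⟨n, ?_⟩
      rw [dlam_same, Cfg.del_same, ← hn]
      unfold Cfg.dl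
      rw [Cfg.del_same]
    · by_cases h1 : y = P
      · obtain ⟨n, hn⟩ := key
        refine ⟨n, ?_⟩
        rw [h1, hmP, hfP, ← hn]
        unfold Cfg.dl
        rw [hfP]
      · by_cases h2 : y = Q
        · obtain ⟨n, hn⟩ := key
          obtain ⟨m, hm⟩ := h.four hg
          have hw := wn_compl wl hPQ
          have hw' : (wn wl P Q : ℝ) + (wn wl Q P : ℝ) = 1 := by exact_mod_cast hw
          refine ⟨m - n - (lam (!b) x + lam b x + lam (!b) q : ℕ), ?_⟩
          rw [h2, hmQ, hfQ]
          have e1 : 2 * (M₀ + (c.del b x).dl E₀ (!b) Q) =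
              4 * M₀ - 2 * (M₀ + sg (!b) * (E₀ Q - E₀ P)) := by
            unfold Cfg.dl
            rw [hfQ]; ring
          rw [e1, hn, hm]
          push_cast
          linarith
        · obtain ⟨n, hn⟩ := h.par (!b) y hy3
          refine ⟨n, ?_⟩
          rw [hmo y h1 h2, hfo y hy3 h1 h2, ← hn]
          unfold Cfg.dl
          rw [hfo y hy3 h1 h2]
  · -- lab
    intro b' y hy hb'
    obtain ⟨hy1, hy2, hy3⟩ := Cfg.mem_del.1 hy
    rcases Cfg.bool_cases b b' with hb | hb
    · rw [hb, Cfg.del_same, dlam_same]; exact h.lab b y hy3 (hb'.trans hb)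
    · rw [hb] at hb' ⊢
      by_cases h1 : y = P
      · have c1 : col x = b := by
          have := hcol (!b) y hy3
          rw [h1, hinvP, ← h1, hb'] at this
          simpa using this
        have c2 : col q = !b := by
          rw [hqd, hcol b x hx, c1]
        have l1 := h.lab (!b) y hy3 hb'
        have l2 := h.lab b x hx c1
        have l3 := h.lab (!b) q hq c2
        rw [h1, hinvP] at l1
        rw [← hqd] at l2
        rw [← hQd] at l3
        rw [h1, hfP, hmP, l3, l2, l1]
        have : lam (!b) P = lam (!b) x := by rw [hPd]; exact h.sym (!b) x hx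
        rw [this]
        push_cast
        ring
      · by_cases h2 : y = Q
        · have c1 : col q = b := by
            have := hcol (!b) y hy3
            rw [h2, hinvQ, ← h2, hb'] at this
            simpa using this
          have c2 : col x = !b := by
            have := hcol b x hx
            rw [← hqd, c1] at this
            rw [this, Bool.not_not]
          have l1 := h.lab (!b) y hy3 hb'
          have l2 := h.lab b q hq c1
          have l3 := h.lab (!b) x hx c2
          rw [h2, hinvQ] at l1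
          rw [hinvx] at l2
          rw [← hPd] at l3
          rw [h2, hfQ, hmQ, l3, l2, l1]
          have e1 : lam (!b) Q = lam (!b) q := by rw [hQd]; exact h.sym (!b) q hq
          have e2 : lam b q = lam b x := by rw [hqd]; exact h.sym b x hx
          rw [e1, e2]
          push_cast
          ring
        · rw [hfo y hy3 h1 h2, hmo y h1 h2]
          exact h.lab (!b) y hy3 hb'
  · -- tot
    have hsum : ∀ (mk' : Bool → W → ℕ) (y : W), mk' true y + mk' false y =
        mk' b y + mk' (!b) y := by
      intro mk' y; cases b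
      · exact add_comm _ _
      · rfl
    have eP : lam (!b) P = lam (!b) x := by rw [hPd]; exact h.sym (!b) x hx
    have eQ : lam (!b) Q = lam (!b) q := by rw [hQd]; exact h.sym (!b) q hq
    have eq' : lam b q = lam b x := by rw [hqd]; exact h.sym b x hx
    have cP : col P = !col x := by rw [hPd]; exact hcol _ x hx
    have cq : col q = !col x := by rw [hqd]; exact hcol _ x hx
    have cQ : col Q = col x := by rw [hQd, hcol _ q hq, cq, Bool.not_not]
    -- `x'` is the deleted point of colour `true`, `t` the one whose chord is spliced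
    obtain ⟨x', t, hx', ht, htd, hxx, hg'⟩ : ∃ x' t, x' ∈ c.S ∧ col x' = true ∧
        t ∈ (c.del b x).S.filter (fun y => col y = true) ∧
        (∀ y ∈ c.S, col y = true → y = x' ∨ (y ≠ x ∧ y ≠ q)) ∧
        ((x' = x ∨ x' = q) ∧ ∀ y ∈ (c.del b x).S.filter (fun y => col y = true),
          dlam c lam b x true y + dlam c lam b x false y =
            (lam true y + lam false y) + if y = t then (lam true x' + lam false x') else 0) := by
      rcases hcx : col x with _ | _
      · refine ⟨q, P, hq, by rw [cq, hcx]; rfl, ?_, ?_, Or.inr rfl, ?_⟩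
        · rw [Finset.mem_filter, Cfg.mem_del, ← hqd]
          exact ⟨⟨hPq, hPp, hP⟩, by rw [cP, hcx]; rfl⟩
        · intro y _ hcy
          by_cases h1 : y = q
          · exact Or.inl h1
          · refine Or.inr ⟨?_, h1⟩
            rintro rfl
            rw [hcx] at hcy
            exact absurd hcy (by simp)
        · intro y hy
          rw [Finset.mem_filter, Cfg.mem_del] at hy
          obtain ⟨⟨hy1, hy2, hy3⟩, hy4⟩ := hy
          rw [hsum (dlam c lam b x), hsum lam, hsum lam, dlam_same]
          by_cases h1 : y = P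
          · rw [if_pos h1, h1, hmP, eP, eq']; ring
          · have h2 : y ≠ Q := by
              rintro rfl
              rw [cQ, hcx] at hy4
              exact absurd hy4 (by simp)
            rw [if_neg h1, hmo y h1 h2, add_zero]
      · refine ⟨x, Q, hx, hcx, ?_, ?_, Or.inl rfl, ?_⟩
        · rw [Finset.mem_filter, Cfg.mem_del, ← hqd]
          exact ⟨⟨hQq, hQp, hQ⟩, by rw [cQ, hcx]⟩
        · intro y _ hcy
          by_cases h1 : y = x
          · exact Or.inl h1
          · refine Or.inr ⟨h1, ?_⟩
            rintro rfl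
            rw [cq, hcx] at hcy
            exact absurd hcy (by simp)
        · intro y hy
          rw [Finset.mem_filter, Cfg.mem_del] at hy
          obtain ⟨⟨hy1, hy2, hy3⟩, hy4⟩ := hy
          rw [hsum (dlam c lam b x), hsum lam, hsum lam, dlam_same]
          by_cases h2 : y = Q
          · rw [if_pos h2, h2, hmQ, eQ]; ring
          · have h1 : y ≠ P := by
              rintro rfl
              rw [cP, hcx] at hy4
              exact absurd hy4 (by simp)
            rw [if_neg h2, hmo y h1 h2, add_zero]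
    have hS : c.S.filter (fun y => col y = true) =
        insert x' ((c.del b x).S.filter (fun y => col y = true)) := by
      ext y
      rw [Finset.mem_insert, Finset.mem_filter, Finset.mem_filter, Cfg.mem_del, ← hqd]
      constructor
      · rintro ⟨h1, h2⟩
        rcases hxx y h1 h2 with h3 | ⟨h3, h4⟩
        · exact Or.inl h3
        · exact Or.inr ⟨⟨h4, h3, h1⟩, h2⟩
      · rintro (rfl | ⟨⟨_, _, h1⟩, h2⟩)
        · exact ⟨hx', ht⟩
        · exact ⟨h1, h2⟩
    have hx'n : x' ∉ (c.del b x).S.filter (fun y => col y = true) := by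
      rw [Finset.mem_filter, Cfg.mem_del, ← hqd]
      rintro ⟨⟨h1, h2, _⟩, _⟩
      rcases hg'.1 with h3 | h3
      · exact h2 h3
      · exact h1 h3
    have h3 := h.tot
    rw [hS, Finset.sum_insert hx'n] at h3
    rw [Finset.sum_congr rfl hg'.2, Finset.sum_add_distrib, Finset.sum_ite_eq', if_pos htd]
    omega

/-- the number of marks between two points of colour `true` which are two steps apart -/
theorem two_marks (h : Law c col E₀ M₀ lam lab wl) (hg : c.Good) (hcol : ColOK col c) {a : W}
    (ha : a ∈ c.S) (hca : col a = true) (hl : lab (c.f false (c.f true a)) ≠ lab a) :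
    (lam true a + lam false (c.f true a) = 1 ∧ lab (c.f false (c.f true a)) = lab a + 1) ∨
      (lam true a + lam false (c.f true a) = 2 ∧ lab (c.f false (c.f true a)) = lab a + 2) := by
  classical
  have hd : c.f false (c.f true a) ≠ a := fun e => hl (by rw [e])
  have hq := hg.mem true a ha
  have hdm := hg.mem false _ hq
  have hcq : col (c.f true a) = false := by rw [hcol true a ha, hca]; rfl
  have hcd : col (c.f false (c.f true a)) = true := by rw [hcol false _ hq, hcq]; rfl
  have l1 := h.lab true a ha hca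
  have l2 := h.lab false _ hq hcq
  have h3 : lam true a + lam false (c.f true a) ≤ 3 := by
    have h4 : ∑ x ∈ ({a, c.f false (c.f true a)} : Finset W), (lam true x + lam false x) ≤
        ∑ x ∈ c.S.filter (fun x => col x = true), (lam true x + lam false x) := by
      apply Finset.sum_le_sum_of_subset
      intro y hy
      rw [Finset.mem_insert, Finset.mem_singleton] at hy
      rw [Finset.mem_filter]
      rcases hy with rfl | rfl
      · exact ⟨ha, hca⟩
      · exact ⟨hdm, hcd⟩
    rw [Finset.sum_pair hd.symm] at h4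
    have h5 := h.sym false _ hq
    have h6 := h.tot
    omega
  have l3 : lab (c.f false (c.f true a)) =
      lab a + ((lam true a + lam false (c.f true a) : ℕ) : ZMod 3) := by
    rw [l2, l1]; push_cast; ring
  obtain ⟨m, hm⟩ : ∃ m, m = lam true a + lam false (c.f true a) := ⟨_, rfl⟩
  rw [← hm] at h3 l3 ⊢
  have h7 : m ≠ 0 := by
    rintro rfl
    apply hl
    rw [l3]; simp
  have h8 : m ≠ 3 := by
    rintro rfl
    apply hl
    rw [l3]
    have : ((3 : ℕ) : ZMod 3) = 0 := by decide
    rw [this, add_zero]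
  have h9 : m = 1 ∨ m = 2 := by omega
  rcases h9 with rfl | rfl
  · left; exact ⟨rfl, by rw [l3]; norm_num⟩
  · right; exact ⟨rfl, by rw [l3]; norm_num⟩

/-- **Gate of type `max`**: `a`, `q`, `d` are consecutive on the closed curve and `d`, `q`, `a` are
in cyclic order on the line. -/
theorem gate_anti (h : Law c col E₀ M₀ lam lab wl) (hg : c.Good) (hcol : ColOK col c) {a : W}
    (ha : a ∈ c.S) (hca : col a = true) (hE : E₀ (c.f false (c.f true a)) = E₀ a)
    (hcyc : Cyc (c.f false (c.f true a)) (c.f true a) a)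
    (hl : lab (c.f false (c.f true a)) ≠ lab a) :
    (lab (c.f false (c.f true a)) = lab a + 1 ↔ wn wl a (c.f false (c.f true a)) = 0) := by
  have hq := hg.mem true a ha
  have hdm := hg.mem false _ hq
  have hd : c.f false (c.f true a) ≠ a := fun e => hl (by rw [e])
  have hm := h.two_marks hg hcol ha hca hl
  obtain ⟨n1, hn1⟩ := h.par false _ hdm
  obtain ⟨n2, hn2⟩ := h.par true _ hq
  rw [hg.inv false _ hq] at hn1
  rw [hg.inv true _ ha] at hn2
  have e1 := h.sym false _ hq
  have e2 := h.sym true _ ha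
  have e3 : c.dl E₀ false (c.f false (c.f true a)) = c.dl E₀ true (c.f true a) := by
    unfold Cfg.dl
    rw [hg.inv false _ hq, hg.inv true _ ha, hE]
    unfold sg
    simp
  rw [e3, hn2] at hn1
  have hn3 : ((lam true (c.f true a) : ℤ) + wn wl (c.f true a) a + 2 * n2) =
      lam false (c.f false (c.f true a)) + wn wl (c.f false (c.f true a)) (c.f true a) +
        2 * n1 := by
    exact_mod_cast hn1
  have hadd := wn_add (wl := wl) h.cut hcyc
  have hco := wn_compl wl hd
  have hle := wn_le_one wl a (c.f false (c.f true a))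
  have h12 : (1 : ZMod 3) ≠ 2 := by decide
  rcases hm with ⟨m1, m2⟩ | ⟨m1, m2⟩
  · refine iff_of_true m2 ?_
    omega
  · refine iff_of_false ?_ ?_
    · rw [m2]; intro hh; exact h12 (add_left_cancel hh).symm
    · omega

/-- **Gate of type `min`**: `a`, `q`, `d` are consecutive on the closed curve and in this cyclic
order on the line. -/
theorem gate_par (h : Law c col E₀ M₀ lam lab wl) (hg : c.Good) (hcol : ColOK col c) {a : W}
    (ha : a ∈ c.S) (hca : col a = true) (hE : E₀ (c.f false (c.f true a)) = E₀ a)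
    (hcyc : Cyc a (c.f true a) (c.f false (c.f true a)))
    (hl : lab (c.f false (c.f true a)) ≠ lab a) :
    (lab (c.f false (c.f true a)) = lab a + 1 ↔ wn wl a (c.f false (c.f true a)) = 1) := by
  have hq := hg.mem true a ha
  have hdm := hg.mem false _ hq
  have hm := h.two_marks hg hcol ha hca hl
  obtain ⟨n1, hn1⟩ := h.par true _ ha
  obtain ⟨n2, hn2⟩ := h.par false _ hq
  have e3 : c.dl E₀ false (c.f true a) = c.dl E₀ true a := by
    unfold Cfg.dl
    rw [hE]
    unfold sg
    simp
  rw [e3, hn1] at hn2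
  have hn3 : ((lam true a : ℤ) + wn wl a (c.f true a) + 2 * n1) =
      lam false (c.f true a) + wn wl (c.f true a) (c.f false (c.f true a)) + 2 * n2 := by
    exact_mod_cast hn2
  have hadd := wn_add (wl := wl) h.cut hcyc
  have hle := wn_le_one wl a (c.f false (c.f true a))
  have h12 : (1 : ZMod 3) ≠ 2 := by decide
  rcases hm with ⟨m1, m2⟩ | ⟨m1, m2⟩
  · refine iff_of_true m2 ?_
    omega
  · refine iff_of_false ?_ ?_
    · rw [m2]; intro hh; exact h12 (add_left_cancel hh).symm
    · omega

end Law

end Vale.Agent.P040.H568
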